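import Vale.Agent.P022F.OkF
import Vale.Agent.P022R.End
import Vale.Agent.P022R.Geo

/-!
P022R: the target of the arithmetic part.
-/

set_option linter.all false

open NumberField

noncomputable section

namespace Vale.Agent.P022R.Top

open Vale.Agent.P022
open Vale.Agent.P022D.As (Tg)
open Vale.Agent.P022D.Core (PS)
open Vale.Agent.P022E.As (Out2 HD2)
open Vale.Agent.P022E.Loc (Pl)
open Vale.Agent.P027M.S (mx)

/-- **block L2** for a residually triangular representation which is distinguished at two -/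
def L2W : Prop := ∀ (O F : Type) [CommRing O] [IsDomain O] [IsDiscreteValuationRing O]
  [P022D.Core.Coef O] [Field F] [Finite F] [CharP F 2] (ϖ : O) (S : P022D.R.Dat O F) (L : Pl O)
  (I : Type) (Y0 : I → Type) (W0 : Type) [∀ i, AddCommGroup (Y0 i)] [∀ i, Module (Tg O) (Y0 i)]
  [AddCommGroup W0] [Module (Tg O) W0] (ses : I → I → I → Prop) (ig : I) (iJ : Finset L.C → I),
  Irreducible ϖ → P022F.OkF L S →
  (∀ l : ℕ, l.Prime → l ∉ S.T → ∀ P : Ideal (𝓞 Qb), P.IsPrime → (l : 𝓞 Qb) ∈ P →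
    ∀ s, P027M.S.Inert P s → L.r s = 1) →
  (∃ g ∈ P022D.W.dec (L.P 2), mx S.rb g 0 0 ≠ mx S.rb g 1 1) → L.W.Nonempty →
  HD2 ϖ S L Y0 W0 ses ig iJ → Out2 ϖ L W0

/-- **generators and relations at the auxiliary levels** -/
def LEV : Prop := ∀ (O F : Type) [CommRing O] [IsDomain O] [IsDiscreteValuationRing O]
  [P022D.Core.Coef O] [Field F] [Finite F] [CharP F 2] (ϖ : O) (S : P022D.R.Dat O F) (L : Pl O),
  Irreducible ϖ → P022F.OkF L S →
  (∀ l : ℕ, l.Prime → l ∉ S.T → ∀ P : Ideal (𝓞 Qb), P.IsPrime → (l : 𝓞 Qb) ∈ P →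
    ∀ s, P027M.S.Inert P s → L.r s = 1) →
  (∃ g ∈ P022D.W.dec (L.P 2), mx S.rb g 0 0 ≠ mx S.rb g 1 1) → L.W.Nonempty →
  ∃ (I J K : Type) (_ : Fintype I) (_ : Fintype J) (_ : DecidableEq I) (_ : DecidableEq J)
    (_ : Fintype K) (s : Sh I J) (r : ℕ) (v0 : Vr I J K → Tg O), s.Ok ∧
    Fintype.card I * Fintype.card J + Fintype.card K + 1 = 2 * r + 2 ∧
    End.LevR ϖ S L r (fun j => ((s.eqn K O j : MvPolynomial (Vr I J K) O) : PS O (Vr I J K)))
      (fun j => Er ϖ (s.wt K) (s.dg j)) v0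

theorem l2W (hG : GEO) (hL : LEV) : L2W := by
  intro O F _ _ _ _ _ _ _ ϖ S L I Y0 W0 _ _ _ _ ses ig iJ hϖ ok unr h2 hW H
  obtain ⟨I', J, K, _, _, _, _, _, s, r, v0, hs, hr, h⟩ := hL O F ϖ S L hϖ ok unr h2 hW
  refine End.endR hϖ (fun _ hl => (ok.nC hl).elim) ok.cont unr
    (by rw [ok.hT]; simp) h (fun f h1 η h3 h4 h5 h6 => ?_) H
  refine hG O I' J K ϖ s hϖ hs f h1 η h3 (sup_le ?_ ?_) (hr ▸ h6)
  · rw [Ideal.span_le]
    rintro _ ⟨j, rfl⟩
    exact h4 j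
  · rwa [Ideal.span_singleton_le_iff_mem]

end Vale.Agent.P022R.Top
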