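import Vale.Agent.P022R.Top.FinW
import Vale.Agent.P022R.Gb
import Vale.Agent.P022R.Nz
import Vale.Agent.P022R.Sec
import Vale.Agent.P022R.Emb
import Vale.Agent.P022R.Dom
import Vale.Agent.P022R.Prm
import Vale.Agent.P022R.Hsp
import Vale.Agent.P022R.Gr
import Vale.Agent.P022R.GeoP

/-!
P022R: everything except the arithmetic part.
-/

namespace Vale.Agent.P022R.Top

open Vale.Agent.P022

theorem geoC : GEO := geo (prm (nz gb) (emb sec) dom) (gr hsp)

/-- **the residually reducible distinguished case** -/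
theorem allL (hL : LEV) (E : Type) [NontriviallyNormedField E] [NormedAlgebra ℚ_[2] E]
    [FiniteDimensional ℚ_[2] E] (r : GQ →* GL (Fin 2) E) (hc : Continuous r)
    (ho : St.OddRep r) (hi : St.AbsIrr r) (hS : {p : ℕ | p.Prime ∧ ¬ St.UnrAt r p}.Finite)
    (k : Type) [Field k] [CharP k 2] (χ₁ χ₂ : GQ →* kˣ) (hr : St.IsEis r χ₁ χ₂)
    (hd : ∀ l : ℕ, l.Prime → l = 2 ∨ ¬ St.UnrAt r l → ∃ g, St.IsDec l g ∧ χ₁ g ≠ χ₂ g) :
    St.Q1Concl r :=
  allW (l2W geoC hL) E r hc ho hi hS k χ₁ χ₂ hr hd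

end Vale.Agent.P022R.Top
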