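import Vale.Agent.P022F.OkF
import Vale.Agent.P022E.As.Defs2

/-!
P022R: the target of the patching argument.
-/

set_option linter.all false

open NumberField

noncomputable section

namespace Vale.Agent.P022R.Top

open Vale.Agent.P022
open Vale.Agent.P022D.As (Tg)
open Vale.Agent.P022E.As (Out2 HD2)
open Vale.Agent.P022E.Loc (Pl)
open Vale.Agent.P027M.S (mx)

/-- **block L2** for a residually triangular representation which is distinguished at two -/
def L2R : Prop := ∀ (O F : Type) [CommRing O] [IsDomain O] [IsDiscreteValuationRing O]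
  [P022D.Core.Coef O] [Field F] [Finite F] [CharP F 2] (ϖ : O) (S : P022D.R.Dat O F) (L : Pl O)
  (I : Type) (Y0 : I → Type) (W0 : Type) [∀ i, AddCommGroup (Y0 i)] [∀ i, Module (Tg O) (Y0 i)]
  [AddCommGroup W0] [Module (Tg O) W0] (ses : I → I → I → Prop) (ig : I) (iJ : Finset L.C → I),
  Irreducible ϖ → P022F.OkF L S →
  (∀ l : ℕ, l.Prime → l ∉ S.T → ∀ P : Ideal (𝓞 Qb), P.IsPrime → (l : 𝓞 Qb) ∈ P →
    ∀ s, P027M.S.Inert P s → L.r s = 1) →
  (∃ g ∈ P022D.W.dec (L.P 2), mx S.rb g 0 0 ≠ mx S.rb g 1 1) →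
  HD2 ϖ S L Y0 W0 ses ig iJ → Out2 ϖ L W0

end Vale.Agent.P022R.Top
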