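import Vale.Agent.P022E.Top.Spec
import Vale.Agent.P022D.Top.Setup

/-!
P022R: the top of the proof for reducible residual representation (statements).
-/

set_option linter.all false

open Matrix NumberField

noncomputable section

namespace Vale.Agent.P022R.Top

open Vale.Agent.P022 Vale.Agent.P022.H790.CT Vale.Agent.P022D.Dk Vale.Agent.P022D.End
open Vale.Agent.P022D.Top hiding COREn CORE MAIN TH END
open Vale.Agent.P022E.Top (TH)

section

variable {E : Type} [NontriviallyNormedField E] [IsUltrametricDist E]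

/-- `r` is integral with upper triangular non split reduction, in normal form -/
structure Red (S : Finset ℕ) (r : GQ →* GL (Fin 2) E) : Prop where
  int : ∀ g i j, ‖(r g : Matrix (Fin 2) (Fin 2) E) i j‖ ≤ 1
  lo : ∀ g, ‖(r g : Matrix (Fin 2) (Fin 2) E) 1 0‖ < 1
  up : ∃ g, ‖(r g : Matrix (Fin 2) (Fin 2) E) 0 1‖ = 1
  reg : ∃ g, (r g : Matrix (Fin 2) (Fin 2) E) 0 1 = 0 ∧ (r g : Matrix (Fin 2) (Fin 2) E) 1 0 = 0 ∧
    ‖(r g : Matrix (Fin 2) (Fin 2) E) 0 0 - (r g : Matrix (Fin 2) (Fin 2) E) 1 1‖ = 1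
  dis : ∀ l ∈ S, ¬ Uni r l
  d2 : ¬ Uni r 2

end

/-- the theorem in fixed weight `i + 1` over fields with a primitive `n`-th root of unity; `S` is
a set of odd primes with product `R` -/
def COREn (R N₀ n : ℕ) [NeZero R] [NeZero N₀] : Prop :=
  ∀ (E : Type) [NontriviallyNormedField E] [NormedAlgebra ℚ_[2] E]
  [IsUltrametricDist E] [FiniteDimensional ℚ_[2] E] (r : GQ →* GL (Fin 2) E)
  (S : Finset ℕ) (ω : (ZMod R)ˣ →* Eˣ) (i : ℕ),
  Continuous r → OddRep r → Red S r → DetOne r → (∀ l ∈ S, l.Prime ∧ l ≠ 2) →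
  R = ∏ l ∈ S, l → (∀ p : ℕ, p.Prime → p ≠ 2 → p ∉ S → UnrAt r p) → Lev r N₀ → N₀ ≠ 1 → 1 ≤ i →
  DetW r R ω i → (∃ ζ : E, IsPrimitiveRoot ζ n) → LimR ((N₀ * R) ^ 2) r

/-- **CORE** -/
def CORE : Prop := ∀ (R N₀ : ℕ) [NeZero R] [NeZero N₀], ∃ n : ℕ, 0 < n ∧ COREn R N₀ n

/-- the theorem for integral models -/
def MAIN : Prop := ∀ (E : Type) [NontriviallyNormedField E] [NormedAlgebra ℚ_[2] E]
  [IsUltrametricDist E] [FiniteDimensional ℚ_[2] E] (r : GQ →* GL (Fin 2) E) (S : Finset ℕ),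
  Continuous r → OddRep r → (∀ p, p ∈ S ↔ p ≠ 2 ∧ p.Prime ∧ ¬ UnrAt r p) → Red S r → TH r →
  Q1Concl E r

section

variable {E : Type} [NontriviallyNormedField E] [IsUltrametricDist E] {χ : GQ →* Eˣ}
  {r : GQ →* GL (Fin 2) E} {S : Finset ℕ}

theorem Red.tw (hn : ∀ g, ‖(χ g : E)‖ = 1) (h : Red S r) : Red S (tws χ r) := by
  have e : ∀ g i j, ‖(tws χ r g : Matrix (Fin 2) (Fin 2) E) i j‖ =
      ‖(r g : Matrix (Fin 2) (Fin 2) E) i j‖ := fun g i j => by
    rw [tws_ent, norm_mul, hn, one_mul]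
  have k : ∀ l, Uni (tws χ r) l → Uni r l := fun l hu P hP hl g hg => by
    have := hu P hP hl g hg
    rwa [tws_tr, norm_mul, hn, one_mul] at this
  refine ⟨fun g i j => ?_, fun g => ?_, ?_, ?_, fun l hl hu => h.dis l hl (k l hu),
    fun hu => h.d2 (k 2 hu)⟩
  · rw [e]
    exact h.int g i j
  · rw [e]
    exact h.lo g
  · obtain ⟨g, a⟩ := h.up
    exact ⟨g, by rwa [e]⟩
  · obtain ⟨g, a, b, c⟩ := h.reg
    refine ⟨g, by rw [tws_ent, a, mul_zero], by rw [tws_ent, b, mul_zero], ?_⟩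
    rw [tws_ent, tws_ent, ← mul_sub, norm_mul, hn, one_mul]
    exact c

variable (E' : Type) [NontriviallyNormedField E'] [IsUltrametricDist E'] [NormedAlgebra E E']

theorem Red.ext (h : Red S r) : Red S (bc E' r) := by
  have k : ∀ l, Uni (bc E' r) l → Uni r l := fun l hu P hP hl g hg => by
    have := hu P hP hl g hg
    rwa [H20.bc_trace, norm_algebraMap'] at this
  refine ⟨fun g i j => ?_, fun g => ?_, ?_, ?_, fun l hl hu => h.dis l hl (k l hu),
    fun hu => h.d2 (k 2 hu)⟩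
  · rw [bc_ent, norm_algebraMap']
    exact h.int g i j
  · rw [bc_ent, norm_algebraMap']
    exact h.lo g
  · obtain ⟨g, a⟩ := h.up
    exact ⟨g, by rwa [bc_ent, norm_algebraMap']⟩
  · obtain ⟨g, a, b, c⟩ := h.reg
    refine ⟨g, by rw [bc_ent, a, map_zero], by rw [bc_ent, b, map_zero], ?_⟩
    rw [bc_ent, bc_ent, ← map_sub, norm_algebraMap']
    exact c

end

end Vale.Agent.P022R.Top
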