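import Vale.Agent.P022D.Top.Su
import Vale.Agent.P022F.A.Su
import Vale.Agent.P022R.Top.Spec

/-!
P022R: the fixed data of the forms side.
-/

set_option linter.all false

open Matrix NumberField IsLocalRing

noncomputable section

namespace Vale.Agent.P022R.Top

open Vale.Agent.P022 Vale.Agent.P022D
open Vale.Agent.P022E.Fm (Su Cy)
open Vale.Agent.P022E.V (Co Unif)
open Vale.Agent.P022E.G (Wd Inert)
open Vale.Agent.P027M.S (mx)
open Vale.Agent.P022D.Sel (M2)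
open Vale.Agent.P022F (OkF explF)
open Vale.Agent.P022F.Top (Su1 OkS ex_cy)
open Vale.Agent.P027M.M (ze)
open Vale.Agent.P022D.Top (Ob mem_Ob max_Ob res_Ob dvd_Ob cpl_Ob norm_two_lt DetOne DetW Lev
  lev_dvd nn nn_pos norm_root omO intg intg_coe open_ker intg_open Uni)

variable {E : Type} [NontriviallyNormedField E] [IsUltrametricDist E]
  [NormedAlgebra ℚ_[2] E] [FiniteDimensional ℚ_[2] E] [V.Co (Ob E)]

omit [V.Co (Ob E)] in
/-- **SETUP** -/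
theorem setup {r : GQ →* GL (Fin 2) E} {Sf : Finset ℕ} (hc : Continuous r) (hM : Red Sf r)
    (hd : DetOne r) (T : Finset ℕ) (hT : T.Nonempty) : ∃ S r', Su1 r T S r' := by
  have hi := hM.int
  obtain ⟨g0, a01, a10, hne⟩ := hM.reg
  obtain ⟨g1, hb⟩ := hM.up
  let r0 := intg r hi
  let π := residue (Ob E)
  let rm : GQ →* M2 (ResidueField (Ob E)) := π.mapMatrix.toMonoidHom.comp r0
  have erm : ∀ g i j, rm g i j = π (r0 g i j) := fun _ _ _ => rfl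
  have ez : ∀ g i j, rm g i j = 0 ↔ ‖(r g : Matrix (Fin 2) (Fin 2) E) i j‖ < 1 :=
    fun g i j => res_Ob
  have edt : ∀ g, ((r0 g).det : E) = (r g : Matrix (Fin 2) (Fin 2) E).det := fun g => by
    rw [Matrix.det_fin_two, Matrix.det_fin_two]; rfl
  have hdet : ∀ g, (rm g).det = 1 := fun g => by
    have h1 : π ((r0 g).det - 1) = 0 := res_Ob.2 (by
      rw [AddSubgroupClass.coe_sub, edt]; exact hd g)
    rw [map_sub, map_one, sub_eq_zero, RingHom.map_det] at h1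
    exact h1
  have n01 : rm g1 0 1 ≠ 0 := fun e => ((ez _ _ _).1 e).ne hb
  have hne' : rm g0 0 0 ≠ rm g0 1 1 := fun e => by
    have h1 : π (r0 g0 0 0 - r0 g0 1 1) = 0 := by rw [map_sub, ← erm, ← erm, e, sub_self]
    exact (res_Ob.1 h1).ne hne
  have z01 := (ez g0 0 1).2 (by rw [a01, norm_zero]; exact one_pos)
  have z10 := (ez g0 1 0).2 (hM.lo g0)
  have hopen : IsOpen {g : GQ | rm.toHomUnits g = 1} := by
    have h6 := intg_open hc hi 1
    refine open_ker _ (Filter.mem_of_superset (h6.mem_nhds (by simp)) fun g hg => ?_)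
    refine Units.ext ?_
    ext i j
    have h7 := congrFun (congrFun hg i) j
    have h8 : r0 g i j - (1 : M2 (Ob E)) i j ∈ maximalIdeal (Ob E) ^ 1 := Ideal.Quotient.eq.1 (by
      refine h7.trans ?_
      by_cases e : i = j <;> simp [Matrix.one_apply, e])
    rw [pow_one, ← residue_eq_zero_iff, map_sub, sub_eq_zero] at h8
    refine h8.trans ?_
    by_cases e : i = j <;> simp [Matrix.one_apply, e]
  exact ⟨⟨π, rm.toHomUnits, T, g0, g1, r0 g1 0 1, hT.choose, residue_surjective, z01, z10, hne',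
    n01, hT.choose_spec⟩, r0, rfl, rfl, hopen, fun g => (ez g 1 0).2 (hM.lo g), hdet,
    fun _ => rfl, intg_open hc hi, fun _ _ _ => rfl, rfl⟩

/-- the decomposition groups above `l` are conjugate -/
theorem conjD {l : ℕ} (hl : l.Prime) {P Q : Ideal (𝓞 Qb)} (hP : P.IsPrime) (hlP : (l : 𝓞 Qb) ∈ P)
    (hQ : Q.IsPrime) (hlQ : (l : 𝓞 Qb) ∈ Q) {g : GQ} (h : g ∈ W.dec P) :
    ∃ c : GQ, c * g * c⁻¹ ∈ W.dec Q := by
  obtain ⟨c, hc⟩ := H916.exists_smul (algebraMap ℚ Qb) hP hQ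
    ((H20.below_eq hl hP hlP).trans (H20.below_eq hl hQ hlQ).symm)
  have e : ∀ x : 𝓞 Qb, x ∈ Q ↔ (c : GQ)⁻¹ • x ∈ P := fun x => by
    rw [hc, Ideal.mem_pointwise_smul_iff_inv_smul_mem]
  refine ⟨c, fun x => ?_⟩
  rw [e, e, mul_smul, mul_smul, inv_smul_smul]
  exact h _

/-- **the fixed data exist** -/
theorem exSu {R N₀ : ℕ} [NeZero R] [NeZero N₀] {r : GQ →* GL (Fin 2) E}
    {S : Finset ℕ} {ω : (ZMod R)ˣ →* Eˣ} {i : ℕ} (hc : Continuous r) (ho : OddRep r)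
    (hM : Red S r) (h1 : N₀ ≠ 1) (hd : DetOne r) (hS : ∀ l ∈ S, l.Prime ∧ l ≠ 2) (hR : R = ∏ l ∈ S, l)
    (hu : ∀ p : ℕ, p.Prime → p ≠ 2 → p ∉ S → UnrAt r p) (hL : Lev r N₀) (hi : 1 ≤ i)
    (hW : DetW r R ω i) {ζ : E} (hζ : IsPrimitiveRoot ζ (nn R N₀)) :
    ∃ U : Su (Ob E) (ResidueField (Ob E)), OkS U ∧ Irreducible U.ϖ ∧ U.N ∣ N₀ * R ∧
      (∃ g ∈ W.dec (U.L.P 2), mx U.S.rb g 0 0 ≠ mx U.S.rb g 1 1) ∧
      (∀ g, ((U.L.r g).trace : E) = (r g : Matrix (Fin 2) (Fin 2) E).trace) ∧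
      ∀ g, ((U.L.r g).det : E) = (r g : Matrix (Fin 2) (Fin 2) E).det := by
  classical
  obtain ⟨D, r', hD⟩ := setup hc hM hd (insert 0 (insert 2 S)) (Finset.insert_nonempty _ _)
  obtain ⟨c, hcj⟩ := H443.exists_isConj
  obtain ⟨ϖ, hϖ⟩ := IsDiscreteValuationRing.exists_irreducible (Ob E)
  haveI := (cpl_Ob (E := E))
  have hker : ∀ x, D.red x = 0 ↔ x ∈ maximalIdeal (Ob E) := fun x => by
    rw [hD.red, residue_eq_zero_iff]
  obtain ⟨L, e, u, v, ok, -, rfl, -, hLW, hw⟩ := explF (Ob E) _ D ⊤ r' c S hker ⟨hD.opn⟩ hD.lo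
    (fun l hl hU => hM.dis l hl fun P h1 h2 g h3 => (hD.tr_iff g).1 (hU P h1 h2 g h3)) hD.det
    hD.hT hS hcj hD.lift hD.cont (Subtype.ext (by rw [hD.dt, ho c hcj]; rfl))
  have hWC : L.W ∪ L.C = S := by rw [ok.hC, Finset.union_empty, hLW]
  have hub : ∃ g ∈ W.dec (L.P 2), mx D.rb g 0 0 ≠ mx D.rb g 1 1 := by
    obtain ⟨P, p1, p2, g, p3, p4⟩ := hD.dis hM.d2
    obtain ⟨k, hk⟩ := conjD Nat.prime_two p1 p2 (Loc2.PP_prime 2) (Loc2.p_mem_PP 2)
      (P022E.Loc.Expl.mem_dec Nat.prime_two p1 p2 p3)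
    refine ⟨_, ok.h2 ▸ hk, fun e => p4 ?_⟩
    have e1 : (mx D.rb (k * g * k⁻¹)).trace = (mx D.rb g).trace := by
      rw [show mx D.rb (k * g * k⁻¹) = mx D.rb (k * g) * mx D.rb k⁻¹ from
        congrArg Units.val (map_mul D.rb _ _), Matrix.trace_mul_comm,
        ← show mx D.rb (k⁻¹ * (k * g)) = mx D.rb k⁻¹ * mx D.rb (k * g) from
        congrArg Units.val (map_mul D.rb _ _), inv_mul_cancel_left]
    rw [← e1, Matrix.trace_fin_two, e, CharTwo.add_self_eq_zero]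
  have dv : ∀ {x : Ob E}, ϖ ∣ x ↔ x ∈ maximalIdeal (Ob E) := by
    intro x
    rw [hϖ.maximalIdeal_eq, Ideal.mem_span_singleton]
  have hunr : ∀ l : ℕ, l.Prime → l ∉ D.T → ∀ g, G.Inert l g → L.r g = 1 := by
    rintro l hl hT g ⟨P, hP, hlP, hg⟩
    rw [hD.hT, Finset.mem_insert, Finset.mem_insert, not_or, not_or] at hT
    exact hD.one g (hu l hl hT.2.1 hT.2.2 P hP hlP g hg)
  have hram : ∀ l : ℕ, l.Prime → l ∣ N₀ → ∃ σ, G.Inert l σ ∧ D.rb σ ≠ 1 := fun l hl h => by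
    by_contra hn
    push Not at hn
    refine hL.ram l hl h fun g hg a b => ?_
    obtain ⟨x, h1, h2⟩ := hD.ent g a b
    rw [show mx D.rb g = 1 from congrArg Units.val (hn g hg)] at h2
    have h3 : residue (Ob E) (x - (1 : Matrix (Fin 2) (Fin 2) (Ob E)) a b) = 0 := by
      rw [map_sub, h2]
      by_cases e : a = b <;> simp [Matrix.one_apply, e]
    refine lt_of_eq_of_lt ?_ (res_Ob.1 h3)
    congr 1
    rw [AddSubgroupClass.coe_sub, h1]
    by_cases e : a = b <;> simp [Matrix.one_apply, e]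
  have hsup : ∀ l : ℕ, l.Prime → l ∣ N₀ → l ∈ L.W ∪ L.C := fun l hl h => by
    obtain ⟨σ, h1, h2⟩ := hram l hl h
    rw [hWC]
    by_contra hn
    refine h2 (Units.ext ?_)
    change mx D.rb σ = 1
    rw [← ok.lift, hunr l hl (by
      rw [hD.hT, Finset.mem_insert, Finset.mem_insert, not_or, not_or]
      exact ⟨hl.ne_zero, fun e => hL.odd.not_two_dvd_nat (e ▸ h), hn⟩) σ h1,
      Matrix.map_one _ (map_zero _) (map_one _)]
  have w3 : L.W.Nonempty ∨ ∃ l ∈ L.C, mx D.rb (L.τ l) ≠ 1 := by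
    obtain ⟨l, hl, h⟩ := Nat.exists_prime_and_dvd h1
    exact Or.inl ⟨l, ok.memW (hsup l hl h)⟩
  have hsq : ∀ l ∈ L.C, ¬ l ^ 2 ∣ N₀ := fun l hl => (ok.nC hl).elim
  obtain ⟨d1, d2⟩ := lev_dvd ok.dj (NeZero.ne N₀) hsup
    (fun l hl => (ok.pr l (Finset.mem_union_right _ hl)).1) hsq
  set A := ∏ l ∈ L.W, l ^ N₀.factorization l with hA
  have eR : R = (∏ l ∈ L.W, l) * ∏ l ∈ L.C, l := by rw [hR, ← hWC, Finset.prod_union ok.dj]
  have eN : A * (∏ l ∈ L.W, l) * ∏ l ∈ L.C, l = A * R := by rw [eR, mul_assoc]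
  have A0 : A ≠ 0 := fun h => NeZero.ne N₀ (Nat.eq_zero_of_zero_dvd (h ▸ d1))
  have N0 : A * R ≠ 0 := mul_ne_zero A0 (NeZero.ne R)
  have dN : A * R ∣ N₀ * R := mul_dvd_mul_right d1 _
  have oR : Odd R := by
    rw [hR]
    exact Finset.prod_induction _ Odd (fun _ _ => Odd.mul) odd_one fun l hl =>
      (hS l hl).1.odd_of_ne_two (hS l hl).2
  have oN : Odd (A * R) := (hL.odd.mul oR).of_dvd_nat dN
  have n0 := nn_pos (NeZero.ne R) (NeZero.ne N₀)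
  let y : Ob E := ⟨ζ, mem_Ob.2 (norm_root n0.ne' hζ.pow_eq_one).le⟩
  have hy : IsPrimitiveRoot y (nn R N₀) :=
    IsPrimitiveRoot.of_map_of_injective (f := (Ob E).subtype) hζ Subtype.val_injective
  haveI : NeZero (nn R N₀) := ⟨n0.ne'⟩
  obtain ⟨k, -, hk⟩ := (hy.map_of_injective (f := V.Co.j) V.Co.inj).eq_pow_of_pow_eq_one
    (ξ := ze (A * R) 1) (by
      have h1 : IsPrimitiveRoot (ze (A * R) 1) (A * R) := by
        simpa [ze] using Complex.isPrimitiveRoot_exp (A * R) N0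
      exact (h1.pow_eq_one_iff_dvd _).2 (dN.trans (dvd_mul_right _ _)))
  have hdet : ∀ j : ℕ, ∃ a : ℕ, ∀ (g : GQ) (x : ℕ), Nat.Coprime x (A * R) →
      Cy (2 ^ a * (A * R)) g x → ϖ ^ j ∣ (L.r g).det - omO ω x * (x : Ob E) ^ i := fun j => by
    obtain ⟨a, ha⟩ := hW (‖(ϖ : E)‖ ^ j)
      (pow_pos (norm_pos_iff.2 fun e => hϖ.ne_zero (Subtype.ext e)) j)
    refine ⟨a, fun g x hx hg => dvd_Ob.2 ?_⟩
    have h1 := ha g x (ZMod.unitOfCoprime x (hx.coprime_dvd_right (dvd_mul_left _ _)))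
      (ZMod.coe_unitOfCoprime _ _) fun z hz => hg z (by
        rw [mul_left_comm, mul_comm, pow_mul, hz, one_pow])
    rw [← MulChar.ofUnitHom_coe, ZMod.coe_unitOfCoprime, ← hD.dt] at h1
    rw [SubmonoidClass.coe_pow, norm_pow]
    exact h1.le
  have homp : ∀ x x' : ℕ, x ≡ x' [MOD A * R] → omO ω x = omO ω x' := fun x x' h =>
    Subtype.ext (congrArg (MulChar.ofUnitHom ω)
      ((ZMod.natCast_eq_natCast_iff _ _ _).2 (h.of_mul_left A)))
  have hodd : ∀ x : ℕ, Odd x → Nat.Coprime x (A * R) → ϖ ∣ omO ω x - 1 := fun x ox hx => by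
    obtain ⟨a, ha⟩ := hdet 1
    obtain ⟨g, hg⟩ := ex_cy (mul_ne_zero (pow_ne_zero a two_ne_zero) N0)
      (Nat.Coprime.mul_right (Nat.Coprime.pow_right a (Nat.coprime_two_right.2 ox)) hx)
    have h1 := ha g x hx hg
    rw [pow_one] at h1
    have h2 : ϖ ∣ (L.r g).det - 1 := by
      rw [dv, ← hker, map_sub, map_one, RingHom.map_det, RingHom.mapMatrix_apply, ok.lift, ok.det,
        sub_self]
    have h3 : ϖ ∣ (x : Ob E) ^ i - 1 := by
      obtain ⟨m, hm⟩ := ox.pow (n := i)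
      have h4 := congrArg (Nat.cast : ℕ → Ob E) hm
      push_cast at h4
      rw [h4, add_sub_cancel_right]
      exact (dv.2 (max_Ob.2 norm_two_lt)).mul_right _
    have h4 := ((h2.sub h1).sub (h3.mul_left (omO ω x)))
    rwa [show (L.r g).det - 1 - ((L.r g).det - omO ω x * (x : Ob E) ^ i) -
      omO ω x * ((x : Ob E) ^ i - 1) = omO ω x - 1 by ring] at h4
  refine ⟨⟨D, L, ϖ, i, A * ∏ l ∈ L.W, l, ∏ l ∈ L.C, l, N₀, y ^ k, omO ω⟩, ⟨ok,
    ⟨hϖ.ne_zero, hϖ.not_isUnit, fun a ha => dv.2 ha⟩, hi, rfl,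
    fun h => N0 (by rw [← eN, show A * ∏ l ∈ L.W, l = 0 from h, zero_mul]), fun l hl => ?_,
    w3, ?_, fun l hl => ?_, Subtype.ext ?_, fun x x' => Subtype.ext ?_, ?_, ?_, hunr,
    fun l hl => ⟨_, _, _, hw l hl⟩, ?_, ?_, ?_, ?_, fun l hl h => (ok.nC hl).elim⟩, hϖ, ?_, hub,
    hD.tr, hD.dt⟩
  · change l ∣ A * ∏ l ∈ L.W, l ↔ l ∈ L.W
    refine ⟨fun h => ?_, fun h => (Finset.dvd_prod_of_mem _ h).mul_left _⟩
    rw [hA, ← Finset.prod_mul_distrib, hl.prime.dvd_finset_prod_iff] at h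
    obtain ⟨p, hp, h⟩ := h
    rw [← pow_succ] at h
    rwa [(Nat.prime_dvd_prime_iff_eq hl (ok.pr p (Finset.mem_union_left _ hp)).1).1
      (hl.dvd_of_dvd_pow h)]
  · change V.Co.j (y ^ k) = ze (A * (∏ l ∈ L.W, l) * ∏ l ∈ L.C, l) 1
    rw [eN, map_pow, hk]
  · have h1 : l ∈ R.primeFactors := Nat.mem_primeFactors.2
      ⟨(ok.pr l (Finset.mem_union_left _ hl)).1,
        eR ▸ (Finset.dvd_prod_of_mem _ hl).mul_right _, NeZero.ne R⟩
    obtain ⟨m, hm⟩ := (Finset.dvd_prod_of_mem (fun l => l ^ 2 - 1) h1).mul_left (N₀ * R)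
    exact ⟨y ^ m, hy.pow n0 (hm.trans (mul_comm _ _))⟩
  · change MulChar.ofUnitHom ω ((1 : ℕ) : ZMod R) = 1
    rw [Nat.cast_one, map_one]
  · change MulChar.ofUnitHom ω ((x * x' : ℕ) : ZMod R) = _
    rw [Nat.cast_mul, map_mul]
    rfl
  · change ∀ x x' : ℕ, x ≡ x' [MOD A * (∏ l ∈ L.W, l) * ∏ l ∈ L.C, l] → _
    rw [eN]
    exact homp
  · change ∀ j : ℕ, ∃ a : ℕ, ∀ (g : GQ) (x : ℕ),
      Nat.Coprime x (A * (∏ l ∈ L.W, l) * ∏ l ∈ L.C, l) →
      Cy (2 ^ a * (A * (∏ l ∈ L.W, l) * ∏ l ∈ L.C, l)) g x → _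
    rw [eN]
    exact hdet
  · change ∀ x : ℕ, Nat.Coprime x (A * (∏ l ∈ L.W, l) * ∏ l ∈ L.C, l) → ϖ ∣ omO ω x - 1
    rw [eN]
    intro x hx
    rcases Nat.even_or_odd x with h | h
    · rw [homp x (x + A * R) (by simp [Nat.ModEq])]
      exact hodd _ (h.add_odd oN) (by simpa using hx)
    · exact hodd x h hx
  · change D.red D.lam = mx D.rb D.g1 0 1
    rw [← hD.nm, ← hD.lift]
    rfl
  · change N₀ ∣ A * (∏ l ∈ L.W, l) * ∏ l ∈ L.C, l
    exact d2.trans (mul_dvd_mul_right (dvd_mul_right _ _) _)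
  · intro _
    obtain ⟨k, hk⟩ := hL.res
    refine ⟨k, fun X hX => dv.2 (max_Ob.2 ?_)⟩
    have h1 := hk (fun ℓ => P022D.Fm.fr ℓ.1)
      (fun ℓ => Classical.epsilon_spec (H20.exists_isFrob ℓ.2.1)) X hX
    refine lt_of_eq_of_lt (congrArg norm ?_) h1
    clear h1 hX
    induction X using FreeAlgebra.induction with
    | grade0 n => rw [AlgHom.commutes, AlgHom.commutes, eq_intCast, eq_intCast, Subring.coe_intCast]
    | grade1 s =>
      rw [FreeAlgebra.lift_ι_apply, FreeAlgebra.lift_ι_apply]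
      rcases s with ℓ | ℓ
      · exact hD.tr _
      · exact hD.dt _
    | mul p q hp hq => rw [map_mul, map_mul, Subring.coe_mul, hp, hq]
    | add p q hp hq => rw [map_add, map_add, Subring.coe_add, hp, hq]
  · change A * (∏ l ∈ L.W, l) * ∏ l ∈ L.C, l ∣ N₀ * R
    rw [eN]
    exact dN

end Vale.Agent.P022R.Top
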