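import Vale.Agent.P022F.A.Main
import Vale.Agent.P022R.Top.Su
import Vale.Agent.P022R.Top.Lev

/-!
P022R: the theorem in fixed weight from the end game and the forms side.
-/

set_option linter.all false

open Matrix NumberField IsLocalRing

noncomputable section

namespace Vale.Agent.P022R.Top

open Vale.Agent.P022 Vale.Agent.P022D.V Vale.Agent.P022E.Fm
open Vale.Agent.P022D.Top (Ob mem_Ob LimR nn nn_pos ex_PA)
open Vale.Agent.P022D.As (Tg tt dd ev0)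
open Vale.Agent.P022E.As (Out2 HD2)
open Vale.Agent.P022E.Loc (Pl)
open Vale.Agent.P022E.Top (limE ioW ioW_inj ioW_smul)
open Vale.Agent.P027M.S (mx)
open Vale.Agent.P022F.Top (oddN formsA)

/-- **CORE** -/
theorem coreW (hL : L2W) (hC : ∀ (O : Type) [CommRing O] [Co O], CLAD O) :
    CORE := by
  intro R N₀ _ _
  refine ⟨nn R N₀, nn_pos (NeZero.ne R) (NeZero.ne N₀), ?_⟩
  intro E _ _ _ _ r S ω i hc ho hM hd hS hR hu hv h1 hi hW hz
  obtain ⟨ζ, hζ⟩ := hz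
  obtain ⟨co⟩ := P022D.V.emb E (Ob E) fun x => mem_Ob
  obtain ⟨U, hU, hϖ, hN, u1, htr, hdt⟩ := exSu hc ho hM h1 hd hS hR hu hv hi hW hζ
  haveI : ∀ l : U.L.C, Fact l.1.Prime := fun l => ⟨(hU.ok.pr l.1 (Finset.mem_union_right _ l.2)).1⟩
  obtain ⟨Cc, P, hP⟩ := formsA (Ob E) _ U hU
  have hO := hL (Ob E) _ U.ϖ U.S U.L _ _ _ _ _ _ hϖ hU.ok
    (fun l hl hT Q hQ hlQ s hs => hU.unr l hl hT s ⟨Q, hQ, hlQ, hs⟩) u1
    (hU.W3.resolve_right fun ⟨_, h, _⟩ => hU.ok.nC h) hP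
  have eM : P.M = U.N := by rw [P.lv.eq, Fin.prod_univ_zero, mul_one]
  refine limE (hC _) htr hdt (M := P.M) (i := U.i) (z := U.z) (eM ▸ (oddN hU).1) (eM ▸ (oddN hU).2)
    (pow_dvd_pow_of_dvd (eM ▸ hN) 2) (eM ▸ hU.z) (ioW P) (ioW_inj P)
    (fun w => (show P.X.Wh from w).1.2.1) (fun w => (mem_of_sub (show P.X.Wh from w).2.1).1.2)
    (fun p u φ hp h2 hu hφ w => ?_) (fun p u φ hp h2 hu hφ w => ?_) hϖ.not_isUnit hO
  · obtain ⟨h, rfl⟩ := ex_PA hp h2 hu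
    rw [ioW_smul, show P.ev (tt φ) = P.X.t φ from MvPolynomial.eval₂Hom_X' _ _ _]
    exact P.ok.op.frT ⟨p, h⟩ φ hφ _
  · obtain ⟨h, rfl⟩ := ex_PA hp h2 hu
    rw [ioW_smul, show P.ev (dd φ) = P.X.d φ from MvPolynomial.eval₂Hom_X' _ _ _]
    exact P.ok.op.frS ⟨p, h⟩ φ hφ _

theorem coreWC (hL : L2W) : CORE :=
  coreW hL fun O _ _ =>
    P022D.V.clad O (P022D.V.cla O) (P022D.V.lift O) (P022D.V.All.div O)

end Vale.Agent.P022R.Top
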