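import Vale.Agent.P022R.Top.Spec
import Vale.Agent.P022D.End.Main

/-!
# P022R, block END: normalisations, interpolation in the weight, twists
-/

set_option linter.all false

open NumberField Matrix

noncomputable section

namespace Vale.Agent.P022R.EndT

open Vale.Agent.P022 Vale.Agent.P022.H567.Tw Vale.Agent.P022.H853 Vale.Agent.P022.H790.CT
  Vale.Agent.P022D.Dk Vale.Agent.P022D.End
open Vale.Agent.P022D.Top hiding COREn CORE MAIN TH END
open Vale.Agent.P022R.Top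

/-- the interpolation in the weight -/
theorem wtF {R N₀ n : ℕ} [NeZero R] [NeZero N₀] (hC : COREn R N₀ n) (E : Type)
    [NontriviallyNormedField E] [NormedAlgebra ℚ_[2] E] [IsUltrametricDist E]
    [FiniteDimensional ℚ_[2] E] (r : GQ →* GL (Fin 2) E) (S : Finset ℕ)
    (ω : (ZMod R)ˣ →* Eˣ) (ψ : GQ →* Eˣ) (i : ℕ) (hc : Continuous r) (ho : OddRep r)
    (hM : Red S r) (hd : DetOne r) (hS : ∀ l ∈ S, l.Prime ∧ l ≠ 2) (hR : R = ∏ l ∈ S, l)
    (hu : ∀ p : ℕ, p.Prime → p ≠ 2 → p ∉ S → UnrAt r p) (hL : Lev r N₀) (h1 : N₀ ≠ 1)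
    (hi : 1 ≤ i)
    (hψ : KW2 ψ) (hdet : ∀ g, (r g : Matrix (Fin 2) (Fin 2) E).det =
      ((ω (cyc R g) : Eˣ) : E) * ((ψ g : Eˣ) : E) ^ 2 * ((chiE E g : Eˣ) : E) ^ i)
    (hz : ∃ ζ : E, IsPrimitiveRoot ζ n) : Occurs E ((N₀ * R) ^ 2) r := by
  have hcE : CompleteSpace E := FiniteDimensional.complete ℚ_[2] E
  choose φ hφ using fun l : PA ((N₀ * R) ^ 2) => H20.exists_isFrob l.2.1
  have h2 : ∀ l : PA ((N₀ * R) ^ 2), l.1 ≠ 2 := fun l h => l.2.2 (by
    rw [h]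
    exact dvd_mul_right 2 _)
  have hν : ∀ ν : ℕ, Lim ((N₀ * R) ^ 2)
      (twc (fun l => (l.1 : E) ^ ν) (sys (tws ψ⁻¹ r) φ)) := by
    intro ν
    have hk : KW2 (chiE E ^ ν * ψ⁻¹) := (kw2_chi.pow ν).mul hψ.inv
    have h := hC E (tws (chiE E ^ ν * ψ⁻¹) r) S ω (i + 2 * ν) (continuous_tws hk.cont hc)
      (odd_tws ho) (hM.tw hk.norm) (detOne_tws hk.res hd) hS hR
      (fun p hp hp2 hpS => unr_tws (fun P hP hpP g hg => hk.unr hp hp2 hP hpP hg) (hu p hp hp2 hpS))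
      (lev_tws hk.res hM.int hL) h1 (by omega) (detW_of fun g => by
        rw [tws_det, hdet, MonoidHom.mul_apply, MonoidHom.pow_apply, MonoidHom.inv_apply,
          Units.val_mul, Units.val_pow_eq_pow_val, Units.val_inv_eq_inv_val]
        have := (ψ g).ne_zero
        field_simp
        ring) hz φ hφ
    have e : twc (fun l => (l.1 : E) ^ ν) (sys (tws ψ⁻¹ r) φ) =
        sys (tws (chiE E ^ ν * ψ⁻¹) r) φ := by
      funext s
      rcases s with l | l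
      · change (l.1 : E) ^ ν * (tws ψ⁻¹ r (φ l) : Matrix (Fin 2) (Fin 2) E).trace =
          (tws (chiE E ^ ν * ψ⁻¹) r (φ l) : Matrix (Fin 2) (Fin 2) E).trace
        rw [tws_tr, tws_tr, MonoidHom.mul_apply, MonoidHom.pow_apply, Units.val_mul,
          Units.val_pow_eq_pow_val, chiE_frob l.2.1 (h2 l) (hφ l), mul_assoc]
      · change ((l.1 : E) ^ ν) ^ 2 * (tws ψ⁻¹ r (φ l) : Matrix (Fin 2) (Fin 2) E).det =
          (tws (chiE E ^ ν * ψ⁻¹) r (φ l) : Matrix (Fin 2) (Fin 2) E).det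
        rw [tws_det, tws_det, MonoidHom.mul_apply, MonoidHom.pow_apply, Units.val_mul,
          Units.val_pow_eq_pow_val, chiE_frob l.2.1 (h2 l) (hφ l), mul_pow ((l.1 : E) ^ ν),
          mul_assoc]
    rwa [e]
  have h := lim_tw _ (sys_le (hM.tw hψ.inv.norm).int φ) ψ (fun g => (hψ.norm g).le) hψ φ hφ
    hν
  have e : twc (fun l => ((ψ (φ l) : Eˣ) : E)) (sys (tws ψ⁻¹ r) φ) = sys r φ := by
    funext s
    rcases s with l | l
    · change ((ψ (φ l) : Eˣ) : E) * (tws ψ⁻¹ r (φ l) : Matrix (Fin 2) (Fin 2) E).trace =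
        (r (φ l) : Matrix (Fin 2) (Fin 2) E).trace
      rw [tws_tr, MonoidHom.inv_apply, ← mul_assoc, Units.mul_inv, one_mul]
    · change ((ψ (φ l) : Eˣ) : E) ^ 2 * (tws ψ⁻¹ r (φ l) : Matrix (Fin 2) (Fin 2) E).det =
        (r (φ l) : Matrix (Fin 2) (Fin 2) E).det
      rw [tws_det, MonoidHom.inv_apply, ← mul_assoc, ← mul_pow, Units.mul_inv, one_pow, one_mul]
  rw [e] at h
  refine occ_of_lim hM.int (fun l => hu l.1 l.2.1 (h2 l) fun hl => l.2.2 ?_) φ hφ h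
  have : l.1 ∣ R := (Finset.dvd_prod_of_mem (fun l => l) hl).trans (dvd_of_eq hR.symm)
  exact ((this.mul_left N₀).trans (dvd_pow_self _ two_ne_zero)).mul_left 2

/-- **END** -/
theorem endF (hC : CORE) : MAIN := by
  classical
  intro E _ _ _ _ r S hc ho hmem hM hTH
  have hcE : CompleteSpace E := FiniteDimensional.complete ℚ_[2] E
  let d : GQ →* Eˣ := Matrix.GeneralLinearGroup.det.comp r
  have hd : ∀ g, ((d g : Eˣ) : E) = (r g : Matrix (Fin 2) (Fin 2) E).det := fun _ => rfl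
  have hdc : Continuous d := by
    rw [Units.isEmbedding_val₀.continuous_iff]
    exact (Units.continuous_val.comp hc).matrix_det
  obtain ⟨m, iNZ, ψf, ψ2, hm, hc2, hdec, hun2, -, hram⟩ := decomp C.GCHF d hdc (insert 2 S)
    (fun p hp hpS P hP hpP g hg => by
      have hur : UnrAt r p := by
        by_contra hne
        rw [Finset.mem_insert, not_or] at hpS
        exact hpS.2 ((hmem p).2 ⟨hpS.1, hp, hne⟩)
      change Matrix.GeneralLinearGroup.det (r g) = 1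
      rw [hur P hP hpP g hg, map_one])
  have hk2 : KW2 ψ2 := kw2_of hc2 hun2
  let R : ℕ := ∏ l ∈ S, l
  have hRo : Odd R := Finset.prod_induction _ Odd (fun _ _ => Odd.mul) odd_one fun l hl =>
    ((hmem l).1 hl).2.1.odd_of_ne_two ((hmem l).1 hl).1
  haveI : NeZero R := ⟨hRo.pos.ne'⟩
  have hRS : ∀ p : ℕ, p.Prime → p ∣ R → p ∈ S := fun p hp h => by
    obtain ⟨l, hl, h⟩ := (Prime.dvd_finsetProd_iff hp.prime _).1 h
    rwa [(Nat.prime_dvd_prime_iff_eq hp ((hmem l).1 hl).2.1).1 h]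
  have hmS : ∀ p : ℕ, p.Prime → p ∣ m → p ∈ S := fun p hp h => by
    refine (hmem p).2 ⟨?_, hp, fun hu => ?_⟩
    · rintro rfl
      exact (Nat.not_even_iff_odd.2 hm) (even_iff_two_dvd.2 h)
    · obtain ⟨P, hP, hpP, g, hg, hne⟩ := hram p hp h
      apply hne
      change Matrix.GeneralLinearGroup.det (r g) = 1
      rw [hu P hP hpP g hg, map_one]
  obtain ⟨a, b, hb, hab⟩ := Nat.exists_eq_two_pow_mul_odd
    (Fintype.card_ne_zero (α := (ZMod m)ˣ))
  obtain ⟨e, t, het⟩ := ex_exp b a hb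
  let μ : (ZMod m)ˣ →* Eˣ := ψf ^ (2 ^ a * e)
  let ω₀ : (ZMod m)ˣ →* Eˣ := ψf * (μ ^ 2)⁻¹
  have hω₀ : ∀ u, ω₀ u ^ 2 ^ a = 1 := by
    intro u
    have h1 : ψf u ^ (2 ^ a * b) = 1 := by rw [← hab, ← map_pow, pow_card_eq_one, map_one]
    change (ψf u * ((ψf u ^ (2 ^ a * e)) ^ 2)⁻¹) ^ 2 ^ a = 1
    have h2 : (ψf u ^ 2 ^ a) ^ (2 * (2 ^ a * e) + b) = (ψf u ^ 2 ^ a) ^ (1 + b * t) := by rw [het]
    rw [pow_add, pow_add, pow_one, pow_mul (ψf u ^ 2 ^ a) b t, ← pow_mul (ψf u) (2 ^ a) b, h1,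
      one_pow, mul_one, mul_one] at h2
    rw [mul_pow, inv_pow, mul_inv_eq_one, ← h2]
    simp only [← pow_mul]
    congr 1
    ring
  obtain ⟨ω, hω⟩ := tame hRo (fun p hp h => Finset.dvd_prod_of_mem _ (hmS p hp h)) ω₀ hω₀
  let μG : GQ →* Eˣ := μ.comp (cyc m)
  have hμn : ∀ g, ‖((μG⁻¹ g : Eˣ) : E)‖ = 1 := fun g => norm_char μ⁻¹ (cyc m g)
  have hμc : Continuous μG⁻¹ := by
    refine continuous_of_continuousAt_one μG⁻¹ (continuousAt_const.congr (f := fun _ => 1) ?_)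
    filter_upwards [(isOpen_cyc m).mem_nhds (one_mem _)] with g hg
    change 1 = (μ (cyc m g))⁻¹
    rw [show cyc m g = 1 from hg, map_one, inv_one]
  let r₁ := tws μG⁻¹ r
  have hc₁ : Continuous r₁ := continuous_tws hμc hc
  have hM₁ : Red S r₁ := hM.tw hμn
  have hu₁ : ∀ p : ℕ, p.Prime → p ≠ 2 → p ∉ S → UnrAt r₁ p := by
    intro p hp hp2 hpS
    refine unr_tws (fun P hP hpP g hg => ?_) (by
      by_contra hne
      exact hpS ((hmem p).2 ⟨hp2, hp, hne⟩))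
    have h1 : cyc m g = 1 := Units.ext (by
      have := cyc_of_act (n := m) (a := 1) dvd_rfl (g := g) fun ζ hζ => by
        rw [pow_one]
        exact H811.L3.inert_zeta hm.pos hp
          ((Nat.Prime.coprime_iff_not_dvd hp).2 fun h => hpS (hmS p hp h)) P hP hpP hg ζ hζ
      simpa using this)
    change (μ (cyc m g))⁻¹ = 1
    rw [h1, map_one, inv_one]
  have hdet₁ : ∀ g, (r₁ g : Matrix (Fin 2) (Fin 2) E).det =
      ((ω (cyc R g) : Eˣ) : E) * ((ψ2 g : Eˣ) : E) := by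
    intro g
    rw [tws_det, ← hd, hdec, hω, ← Units.val_pow_eq_pow_val, ← Units.val_mul, ← Units.val_mul]
    congr 1
    change (μ (cyc m g))⁻¹ ^ 2 * (ψf (cyc m g) * ψ2 g) =
      ψf (cyc m g) * (μ (cyc m g) ^ 2)⁻¹ * ψ2 g
    rw [inv_pow, ← mul_assoc, mul_comm _ (ψf _)]
  have hD₁ : DetOne r₁ := by
    intro g
    rw [hdet₁, hω]
    refine near (y := ((ψ2 g : Eˣ) : E) - 1) ?_ (hk2.res g)
    rw [sub_sub_sub_cancel_right]
    refine near_mul (norm_lt_of_pow a ?_) (hk2.norm g).le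
    rw [← Units.val_pow_eq_pow_val, hω₀]
    simp
  obtain ⟨N₀, iN, hN1, hL⟩ := hTH μG⁻¹ hμn hD₁
  obtain ⟨n, hn, hCn⟩ := hC R N₀
  obtain ⟨c, hcc⟩ := H443.exists_isConj
  obtain ⟨i, hi, hic⟩ : ∃ i : ℕ, 1 ≤ i ∧ (ψ2 * (chiE E ^ i)⁻¹) c = 1 := by
    have h1 : ((ψ2 c : Eˣ) : E) ^ 2 = 1 := by
      rw [← Units.val_pow_eq_pow_val, ← map_pow, sq, H20.conj_sq hcc, map_one, Units.val_one]
    have h2 : ∀ i, ((ψ2 c : Eˣ) : E) = (-1) ^ i → (ψ2 * (chiE E ^ i)⁻¹) c = 1 := fun i h => by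
      change ψ2 c * (chiE E c ^ i)⁻¹ = 1
      rw [mul_inv_eq_one]
      apply Units.ext
      rw [h, Units.val_pow_eq_pow_val, chiE_conj hcc]
    rcases sq_eq_one_iff.1 h1 with h | h
    · exact ⟨2, by norm_num, h2 2 (by rw [h]; norm_num)⟩
    · exact ⟨1, le_rfl, h2 1 (by rw [h]; norm_num)⟩
  have hη : KW2 (ψ2 * (chiE E ^ i)⁻¹) := hk2.mul (kw2_chi.pow i).inv
  obtain ⟨g0, hg0, hg1⟩ := ex_five
  set η := ψ2 * (chiE E ^ i)⁻¹ with hηd
  obtain ⟨E', i1, i2, i3, i4, i5, i6, hp⟩ := ext_split E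
    ((Polynomial.X ^ 2 - Polynomial.C ((η g0 : Eˣ) : E)) * Polynomial.cyclotomic n E)
  have hcE' : CompleteSpace E' := FiniteDimensional.complete ℚ_[2] E'
  haveI : CharZero E' := charZero_of_injective_algebraMap (algebraMap ℚ_[2] E').injective
  rw [Polynomial.map_mul, Polynomial.map_cyclotomic, Polynomial.map_sub, Polynomial.map_pow,
    Polynomial.map_X, Polynomial.map_C] at hp
  have hne : (Polynomial.X ^ 2 - Polynomial.C (algebraMap E E' ((η g0 : Eˣ) : E))) *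
      Polynomial.cyclotomic n E' ≠ 0 :=
    mul_ne_zero (Polynomial.X_pow_sub_C_ne_zero two_pos _) (Polynomial.cyclotomic_ne_zero n E')
  obtain ⟨s, hs⟩ := (hp.of_dvd hne (dvd_mul_right _ _)).exists_eval_eq_zero (by
    rw [Polynomial.degree_X_pow_sub_C two_pos]; simp)
  obtain ⟨ζ, hζ⟩ := (hp.of_dvd hne (dvd_mul_left _ _)).exists_eval_eq_zero (by
    rw [Polynomial.degree_cyclotomic]
    exact_mod_cast (Nat.totient_pos.2 hn).ne')
  haveI : NeZero (n : E') := ⟨by exact_mod_cast hn.ne'⟩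
  have hζ' : IsPrimitiveRoot ζ n := Polynomial.isRoot_cyclotomic_iff.1 hζ
  have hs' : s ^ 2 = ((bcc E' η g0 : E'ˣ) : E') := by
    rw [bcc_coe]
    simpa [sub_eq_zero] using hs
  obtain ⟨ψ, hψ, hψ2⟩ := sqrt_char (hη.bc E') hcc (by
      change Units.map _ (η c) = 1
      rw [hic, map_one]) hg0 hg1 hs' (norm_lt_of_sq (by rw [hs']; exact (hη.bc E').res g0))
  have hocc := wtF hCn E' (bc E' r₁) S (bcc E' ω) ψ i (bc_cont E' hc₁)
    (H20.bc_odd.2 (odd_tws ho)) (hM₁.ext E') (detOne_bc E' hD₁)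
    (fun l hl => ⟨((hmem l).1 hl).2.1, ((hmem l).1 hl).1⟩) rfl
    (fun p hp hp2 hpS => H20.bc_unrAt.2 (hu₁ p hp hp2 hpS)) (lev_bc E' hL) hN1 hi hψ (fun g => by
      rw [H20.bc_det, hdet₁, ← Units.val_pow_eq_pow_val (ψ g), hψ2, bcc_coe, bcc_coe,
        ← chiE_bc E E', ← map_pow, ← map_mul, ← map_mul, mul_assoc]
      congr 2
      rw [← Units.val_pow_eq_pow_val, ← Units.val_mul]
      congr 1
      change ψ2 g = ψ2 g * (chiE E g ^ i)⁻¹ * chiE E g ^ i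
      rw [inv_mul_cancel_right]) ⟨ζ, hζ'⟩
  refine q1_desc r (1 : GL (Fin 2) E') ?_
  have e1 : cj 1 (bc E' r) = bc E' r := MonoidHom.ext fun g => by
    rw [cj_apply, inv_one, one_mul, mul_one]
  rw [e1]
  refine twist_main E' ((N₀ * R) ^ 2) m ((hL.odd.mul hRo).pow) hm (bcc E' μ) (bc E' r₁) _ hocc
    (fun g u hg => ?_) fun p hp hpd => ?_
  · have h1 : cyc m g = u := Units.ext ((cyc_of_act dvd_rfl hg).trans (ZMod.natCast_zmod_val _))
    ext i j
    rw [Matrix.smul_apply, bc_ent, bc_ent, bcc_coe, smul_eq_mul, ← map_mul, tws_ent, ← mul_assoc,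
      ← h1]
    congr 1
    change _ = ((μ (cyc m g) : Eˣ) : E) * (((μ (cyc m g))⁻¹ : Eˣ) : E) * _
    rw [Units.mul_inv, one_mul]
  · rw [H20.bc_unrAt]
    refine ((hmem p).1 ?_).2.2
    rcases (Nat.Prime.dvd_mul hp).1 hpd with h | h
    · rcases (Nat.Prime.dvd_mul hp).1 (hp.dvd_of_dvd_pow h) with h | h
      · by_contra hpS
        refine hL.ram p hp h fun g hg i j => ?_
        obtain ⟨P, hP, hpP, hg⟩ := hg
        rw [hu₁ p hp (by
          rintro rfl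
          exact (Nat.not_even_iff_odd.2 hL.odd) (even_iff_two_dvd.2 h)) hpS P hP hpP g hg]
        simp
      · exact hRS p hp h
    · exact hmS p hp h

end Vale.Agent.P022R.EndT
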