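import Vale.Agent.P022F.St
import Vale.Agent.P022F.Top.Nf
import Vale.Agent.P022F.Top.Th
import Vale.Agent.P022R.Top.EndMain
import Vale.Agent.P022R.Top.Core

/-!
P022R: the statement for residually reducible representations from the theorem in fixed weight.
-/

set_option linter.all false

open Matrix IsLocalRing

noncomputable section

namespace Vale.Agent.P022R.Top

open Vale.Agent.P022 Vale.Agent.P022D.Dk Vale.Agent.P022D.End
open Vale.Agent.P022D.Top (Ob mem_Ob norm_Ob max_Ob res_Ob Uni)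
open Vale.Agent.P022F

/-- from the normal form -/
theorem red_of {E k : Type} [NontriviallyNormedField E] [NormedAlgebra ℚ_[2] E]
    [IsUltrametricDist E] [Field k] [CharP k 2] {s : GQ →* GL (Fin 2) E}
    {ι : Ob E →+* AlgebraicClosure k} {χ₁ χ₂ : GQ →* kˣ} {g₀ : GQ} {S : Finset ℕ}
    (h : Nf.NF s ι (fun g => algebraMap k _ (χ₁ g : k)) (fun g => algebraMap k _ (χ₂ g : k)) g₀)
    (hne : χ₁ g₀ ≠ χ₂ g₀) (hd : ∀ l ∈ S, ∃ g, St.IsDec l g ∧ χ₁ g ≠ χ₂ g)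
    (h2 : ∃ g, St.IsDec 2 g ∧ χ₁ g ≠ χ₂ g) : Red S s := by
  let x : GQ → Ob E := fun g => ⟨_, mem_Ob.2 (h.int g 0 0)⟩
  let y : GQ → Ob E := fun g => ⟨_, mem_Ob.2 (h.int g 1 1)⟩
  have hx : ∀ g, ι (x g) = algebraMap k _ (χ₁ g : k) := fun g => h.c0 g _ rfl
  have hy : ∀ g, ι (y g) = algebraMap k _ (χ₂ g : k) := fun g => h.c1 g _ rfl
  have inj := (algebraMap k (AlgebraicClosure k)).injective
  have hne' : (χ₁ g₀ : k) ≠ χ₂ g₀ := fun e => hne (Units.ext e)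
  have key : ∀ l, (∃ g, St.IsDec l g ∧ χ₁ g ≠ χ₂ g) → ¬ Uni s l := by
    rintro l ⟨g, ⟨P, hP, hp, hg⟩, h3⟩ hu
    have h4 := hu P hP hp g hg
    rw [Matrix.trace_fin_two] at h4
    have h5 := (Nf.zero_iff ι (x g + y g)).2 h4
    rw [map_add, hx, hy, ← map_add, map_eq_zero, CharTwo.add_eq_zero] at h5
    exact h3 (Units.ext h5)
  refine ⟨h.int, h.lo, h.up.imp fun g e => by rw [e, norm_one], ⟨g₀, h.dg.1, h.dg.2, ?_⟩,
    fun l hl => key l (hd l hl), key 2 h2⟩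
  · refine le_antisymm (norm_Ob (x g₀ - y g₀)) (not_lt.1 fun e => hne' (inj ?_))
    have h3 := (Nf.zero_iff ι (x g₀ - y g₀)).2 e
    rwa [map_sub, hx, hy, sub_eq_zero] at h3

/-- **the residually reducible distinguished case** -/
theorem allR (hL : L2R) (E : Type) [NontriviallyNormedField E] [NormedAlgebra ℚ_[2] E]
    [FiniteDimensional ℚ_[2] E] (r : GQ →* GL (Fin 2) E) (hc : Continuous r)
    (ho : St.OddRep r) (hi : St.AbsIrr r) (hS : {p : ℕ | p.Prime ∧ ¬ St.UnrAt r p}.Finite)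
    (k : Type) [Field k] [CharP k 2] (χ₁ χ₂ : GQ →* kˣ) (hr : St.IsEis r χ₁ χ₂)
    (hd : ∀ l : ℕ, l.Prime → l = 2 ∨ ¬ St.UnrAt r l → ∃ g, St.IsDec l g ∧ χ₁ g ≠ χ₂ g) :
    St.Q1Concl r := by
  classical
  have hC := coreC hL
  obtain ⟨O, π, hO, ht⟩ := hr
  obtain ⟨g₀, -, hg₀⟩ := hd 2 Nat.prime_two (Or.inl rfl)
  let j := algebraMap k (AlgebraicClosure k)
  obtain ⟨E', i1, i2, i3, i4, i5, i6, P, ι, hP⟩ := Nf.model hc hi O (j.comp π) hO
    ((j : k →* _).comp ((Units.coeHom k).comp χ₁)) ((j : k →* _).comp ((Units.coeHom k).comp χ₂))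
    (fun g => by
      obtain ⟨t, d, a1, a2, a3, a4⟩ := ht g
      refine ⟨t, d, a1, a2, ?_, ?_⟩
      · rw [RingHom.comp_apply, a3, map_add]
        rfl
      · rw [RingHom.comp_apply, a4, map_mul]
        rfl) (g₀ := g₀) fun e => hg₀ (Units.ext (j.injective e))
  have hm : ∀ p, p ∈ hS.toFinset.erase 2 ↔ p ≠ 2 ∧ p.Prime ∧ ¬ St.UnrAt r p := fun p => by
    rw [Finset.mem_erase, hS.mem_toFinset]
    rfl
  have hR : Red (hS.toFinset.erase 2) (cj P (bc E' r)) := red_of hP hg₀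
    (fun l hl => hd l ((hm l).1 hl).2.1 (Or.inr ((hm l).1 hl).2.2))
    (hd 2 Nat.prime_two (Or.inl rfl))
  have hc' := cj_cont P (bc_cont E' hc)
  refine St.q1Concl r (q1_desc r P (P022R.EndT.endF hC E' _ _ hc'
    ((cj_odd _ _).2 (H20.bc_odd.2 ho)) (fun p => ?_) hR (Th.thT hc' ?_ hR.int hR.lo
      (hR.reg.imp fun _ h => h.2.2))))
  · rw [cj_unrAt, H20.bc_unrAt]
    exact hm p
  · simp only [cj_unrAt, H20.bc_unrAt]
    exact hS

end Vale.Agent.P022R.Top
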