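import Vale.Agent.P022R.Top.Fin
import Vale.Agent.P022R.Top.CoreW

/-!
P022R: the statement for residually reducible representations from the theorem in fixed weight.
-/

set_option linter.all false

open Matrix IsLocalRing

noncomputable section

namespace Vale.Agent.P022R.Top

open Vale.Agent.P022 Vale.Agent.P022D.Dk Vale.Agent.P022D.End
open Vale.Agent.P022D.Top (Ob mem_Ob norm_Ob max_Ob res_Ob Uni)
open Vale.Agent.P022F

/-- **the residually reducible distinguished case** -/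
theorem allW (hL : L2W) (E : Type) [NontriviallyNormedField E] [NormedAlgebra ℚ_[2] E]
    [FiniteDimensional ℚ_[2] E] (r : GQ →* GL (Fin 2) E) (hc : Continuous r)
    (ho : St.OddRep r) (hi : St.AbsIrr r) (hS : {p : ℕ | p.Prime ∧ ¬ St.UnrAt r p}.Finite)
    (k : Type) [Field k] [CharP k 2] (χ₁ χ₂ : GQ →* kˣ) (hr : St.IsEis r χ₁ χ₂)
    (hd : ∀ l : ℕ, l.Prime → l = 2 ∨ ¬ St.UnrAt r l → ∃ g, St.IsDec l g ∧ χ₁ g ≠ χ₂ g) :
    St.Q1Concl r := by
  classical
  have hC := coreWC hL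
  obtain ⟨O, π, hO, ht⟩ := hr
  obtain ⟨g₀, -, hg₀⟩ := hd 2 Nat.prime_two (Or.inl rfl)
  let j := algebraMap k (AlgebraicClosure k)
  obtain ⟨E', i1, i2, i3, i4, i5, i6, P, ι, hP⟩ := Nf.model hc hi O (j.comp π) hO
    ((j : k →* _).comp ((Units.coeHom k).comp χ₁)) ((j : k →* _).comp ((Units.coeHom k).comp χ₂))
    (fun g => by
      obtain ⟨t, d, a1, a2, a3, a4⟩ := ht g
      refine ⟨t, d, a1, a2, ?_, ?_⟩
      · rw [RingHom.comp_apply, a3, map_add]
        rfl
      · rw [RingHom.comp_apply, a4, map_mul]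
        rfl) (g₀ := g₀) fun e => hg₀ (Units.ext (j.injective e))
  have hm : ∀ p, p ∈ hS.toFinset.erase 2 ↔ p ≠ 2 ∧ p.Prime ∧ ¬ St.UnrAt r p := fun p => by
    rw [Finset.mem_erase, hS.mem_toFinset]
    rfl
  have hR : Red (hS.toFinset.erase 2) (cj P (bc E' r)) := red_of hP hg₀
    (fun l hl => hd l ((hm l).1 hl).2.1 (Or.inr ((hm l).1 hl).2.2))
    (hd 2 Nat.prime_two (Or.inl rfl))
  have hc' := cj_cont P (bc_cont E' hc)
  refine St.q1Concl r (q1_desc r P (P022R.EndT.endF hC E' _ _ hc'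
    ((cj_odd _ _).2 (H20.bc_odd.2 ho)) (fun p => ?_) hR (Th.thT hc' ?_ hR.int hR.lo
      (hR.reg.imp fun _ h => h.2.2))))
  · rw [cj_unrAt, H20.bc_unrAt]
    exact hm p
  · simp only [cj_unrAt, H20.bc_unrAt]
    exact hS

end Vale.Agent.P022R.Top
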